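import Vale.Agent.Lib.P002.G1Defs

/-!
# P002, piece G1-B (pool job 358): leading minors of a product lower * upper and of a bordered
matrix

`lead t k M` is the determinant of the leading block of size `t` of `M` (the determinant of `M`
if `k ≤ t`).  For `L` lower triangular and `B` upper triangular the leading minors of `L * B` are
products of diagonal entries; for the bordered matrix with corner `ε`, first row `ξ ᵥ* β`, first
column `l *ᵥ η` and block `l * β` they are given by a Schur complement formula.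
-/

namespace Vale.Agent.Lib.P002.H71

open Matrix
open Vale.Agent.Lib.P002

theorem h71_trunc_mul {S : Type*} [CommRing S] {k : ℕ}
    (L B : Matrix (Fin (k + 1)) (Fin (k + 1)) S) (hL : ∀ i j, i < j → L i j = 0) :
    (L * B).submatrix Fin.castSucc Fin.castSucc
      = L.submatrix Fin.castSucc Fin.castSucc * B.submatrix Fin.castSucc Fin.castSucc := by
  ext i j
  simp only [Matrix.submatrix_apply, Matrix.mul_apply]
  rw [Fin.sum_univ_castSucc, hL i.castSucc (Fin.last k) (Fin.castSucc_lt_last i), zero_mul,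
    add_zero]

theorem h71_trunc_lt {S : Type*} [CommRing S] {k : ℕ}
    (L : Matrix (Fin (k + 1)) (Fin (k + 1)) S) (hL : ∀ i j, i < j → L i j = 0) :
    ∀ i j : Fin k, i < j → L.submatrix Fin.castSucc Fin.castSucc i j = 0 :=
  fun _ _ h => hL _ _ (Fin.castSucc_lt_castSucc_iff.mpr h)

theorem h71_trunc_ut {S : Type*} [CommRing S] {k : ℕ}
    (B : Matrix (Fin (k + 1)) (Fin (k + 1)) S) (hB : ∀ i j, j < i → B i j = 0) :
    ∀ i j : Fin k, j < i → B.submatrix Fin.castSucc Fin.castSucc i j = 0 :=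
  fun _ _ h => hB _ _ (Fin.castSucc_lt_castSucc_iff.mpr h)

theorem lead_mul_lt_ut {S : Type*} [CommRing S] : ∀ (k t : ℕ) (L B : Matrix (Fin k) (Fin k) S),
    (∀ i j, i < j → L i j = 0) → (∀ i j, j < i → B i j = 0) →
    lead t k (L * B) = ∏ j : Fin k, if j.val < t then L j j * B j j else 1 := by
  intro k
  induction k with
  | zero =>
    intro t L B _ _
    rw [lead_zero_size]
    simp
  | succ k ih =>
    intro t L B hL hB
    rw [lead_succ]
    by_cases h : k + 1 ≤ t
    · rw [if_pos h, Matrix.det_mul, det_lt hL, det_ut hB, ← Finset.prod_mul_distrib]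
      refine Finset.prod_congr rfl fun j _ => ?_
      rw [if_pos (lt_of_lt_of_le j.isLt h)]
    · rw [if_neg h, h71_trunc_mul L B hL,
        ih t _ _ (h71_trunc_lt L hL) (h71_trunc_ut B hB), Fin.prod_univ_castSucc]
      have hlast : ¬ ((Fin.last k : Fin (k + 1)).val < t) := by
        rw [Fin.val_last]
        omega
      rw [if_neg hlast, mul_one]
      rfl

theorem h71_det_bmat_schur {S : Type*} [CommRing S] {k : ℕ} (ξ η : Fin k → S) (ε : S) :
    (bmat ε ξ η (1 : Matrix (Fin k) (Fin k) S)).det = ε - ξ ⬝ᵥ η := by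
  have hf : bmat ε ξ η (1 : Matrix (Fin k) (Fin k) S)
      = bmat 1 ξ 0 1 * bmat (ε - ξ ⬝ᵥ η) 0 η 1 := by
    rw [bmat_mul]
    congr 1
    · simp
    · simp
    · simp
    · simp
  rw [hf, Matrix.det_mul, det_bmat_col_zero, det_bmat_row_zero, Matrix.det_one]
  ring

theorem h71_bmat_factor {S : Type*} [CommRing S] {k : ℕ} (l β : Matrix (Fin k) (Fin k) S)
    (ξ η : Fin k → S) (ε : S) :
    bmat ε (ξ ᵥ* β) (l *ᵥ η) (l * β) = bmat 1 0 0 l * bmat ε ξ η 1 * bmat 1 0 0 β := by
  rw [bmat_mul, bmat_mul]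
  congr 1
  · simp
  · simp
  · simp
  · simp

theorem h71_det_bmat_prod {S : Type*} [CommRing S] {k : ℕ} (l β : Matrix (Fin k) (Fin k) S)
    (ξ η : Fin k → S) (ε : S) :
    (bmat ε (ξ ᵥ* β) (l *ᵥ η) (l * β)).det = (l * β).det * (ε - ξ ⬝ᵥ η) := by
  rw [h71_bmat_factor, Matrix.det_mul, Matrix.det_mul, det_bmat_col_zero, det_bmat_col_zero,
    h71_det_bmat_schur, Matrix.det_mul]
  ring

theorem h71_bmat_trunc {S : Type*} [CommRing S] {k : ℕ} (ε : S) (x y : Fin (k + 1) → S)
    (N : Matrix (Fin (k + 1)) (Fin (k + 1)) S) :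
    (bmat ε x y N).submatrix Fin.castSucc Fin.castSucc
      = bmat ε (fun j => x j.castSucc) (fun i => y i.castSucc)
          (N.submatrix Fin.castSucc Fin.castSucc) := by
  ext i j
  refine Fin.cases ?_ (fun i => ?_) i <;> refine Fin.cases ?_ (fun j => ?_) j
  · rfl
  · show bmat ε x y N (Fin.castSucc 0) (Fin.castSucc j.succ) = x j.castSucc
    rw [Fin.castSucc_zero, ← Fin.succ_castSucc]
    rfl
  · show bmat ε x y N (Fin.castSucc i.succ) (Fin.castSucc 0) = y i.castSucc
    rw [Fin.castSucc_zero, ← Fin.succ_castSucc]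
    rfl
  · show bmat ε x y N (Fin.castSucc i.succ) (Fin.castSucc j.succ) = N i.castSucc j.castSucc
    rw [← Fin.succ_castSucc, ← Fin.succ_castSucc]
    rfl

theorem h71_vecMul_trunc {S : Type*} [CommRing S] {k : ℕ} (ξ : Fin (k + 1) → S)
    (β : Matrix (Fin (k + 1)) (Fin (k + 1)) S) (hβ : ∀ i j, j < i → β i j = 0) :
    (fun j : Fin k => (ξ ᵥ* β) j.castSucc)
      = (fun j : Fin k => ξ j.castSucc) ᵥ* β.submatrix Fin.castSucc Fin.castSucc := by
  funext j
  simp only [Matrix.vecMul, dotProduct, Matrix.submatrix_apply]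
  rw [Fin.sum_univ_castSucc, hβ (Fin.last k) j.castSucc (Fin.castSucc_lt_last j), mul_zero,
    add_zero]

theorem h71_mulVec_trunc {S : Type*} [CommRing S] {k : ℕ} (η : Fin (k + 1) → S)
    (l : Matrix (Fin (k + 1)) (Fin (k + 1)) S) (hl : ∀ i j, i < j → l i j = 0) :
    (fun i : Fin k => (l *ᵥ η) i.castSucc)
      = l.submatrix Fin.castSucc Fin.castSucc *ᵥ (fun j : Fin k => η j.castSucc) := by
  funext i
  simp only [Matrix.mulVec, dotProduct, Matrix.submatrix_apply]
  rw [Fin.sum_univ_castSucc, hl i.castSucc (Fin.last k) (Fin.castSucc_lt_last i), zero_mul,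
    add_zero]

theorem h71_lead_bmat_full {S : Type*} [CommRing S] (k t : ℕ) (hkt : k ≤ t)
    (l β : Matrix (Fin k) (Fin k) S) (ξ η : Fin k → S) (ε : S) :
    lead (t + 1) (k + 1) (bmat ε (ξ ᵥ* β) (l *ᵥ η) (l * β)) =
      lead t k (l * β) * (ε - ∑ j : Fin k, if j.val < t then ξ j * η j else 0) := by
  rw [lead_of_le (k + 1) (t + 1) _ (by omega), lead_of_le k t _ hkt, h71_det_bmat_prod]
  congr 2
  refine Finset.sum_congr rfl fun j _ => ?_
  rw [if_pos (lt_of_lt_of_le j.isLt hkt)]

theorem lead_bmat {S : Type*} [CommRing S] : ∀ (k t : ℕ) (l β : Matrix (Fin k) (Fin k) S)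
    (ξ η : Fin k → S) (ε : S),
    (∀ i j, i < j → l i j = 0) → (∀ i j, j < i → β i j = 0) →
    lead (t + 1) (k + 1) (bmat ε (ξ ᵥ* β) (l *ᵥ η) (l * β)) =
      lead t k (l * β) * (ε - ∑ j : Fin k, if j.val < t then ξ j * η j else 0) := by
  intro k
  induction k with
  | zero =>
    intro t l β ξ η ε _ _
    exact h71_lead_bmat_full 0 t (Nat.zero_le t) l β ξ η ε
  | succ k ih =>
    intro t l β ξ η ε hl hβ
    by_cases h : k + 1 ≤ t
    · exact h71_lead_bmat_full (k + 1) t h l β ξ η ε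
    · rw [lead_succ (t + 1) (k + 1), if_neg (by omega), lead_succ t k (l * β), if_neg h,
        h71_bmat_trunc, h71_vecMul_trunc ξ β hβ, h71_mulVec_trunc η l hl, h71_trunc_mul l β hl,
        ih t _ _ _ _ ε (h71_trunc_lt l hl) (h71_trunc_ut β hβ), Fin.sum_univ_castSucc]
      have hlast : ¬ ((Fin.last k : Fin (k + 1)).val < t) := by
        rw [Fin.val_last]
        omega
      rw [if_neg hlast, add_zero]
      rfl

end Vale.Agent.Lib.P002.H71
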