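import Vale.Agent.Lib.P002.G1Defs
import Vale.Agent.Lib.P002.helper11.UlFrame

/-!
# P002, piece G1-I (pool job 386): properties of the polynomial frame

In the frame `g = g0 * u` (`g0 = jorU δ K v` with `K = cmm A B`, `u = ulF N`,
`N = adjugate g0 * (B * A) * g0`) the commutator `K` is upper triangular with diagonal `δ`,
`B * A` times the reversal matrix is upper triangular, and `g1Mat` is `det g` times the matrix of
`B` in the frame with columns reversed.  The matrix algebra is done for abstract matrices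
(`h71_frame_abstract`); the theorem is its instance, by unfolding `g1Frame` and `g1Mat`
definitionally.
-/

namespace Vale.Agent.Lib.P002.H71

open Matrix
open Vale.Agent.Lib.P002

theorem h71_frame_abstract {n : ℕ} (K g0 u J w BA Bm N : Matrix (Fin n) (Fin n) ℂ)
    (δ : Fin n → ℂ) (hN : N = g0.adjugate * BA * g0) (hdet : (g0 * u).det ≠ 0)
    (hKg : K * g0 = g0 * J)
    (hJut : ∀ i j, j < i → J i j = 0) (hJd : ∀ i, J i i = δ i)
    (hut : ∀ i j, j < i → u i j = 0)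
    (hNuw : ∀ i j, j < i → (N * u * w) i j = 0) :
    (∀ i j, j < i → ((g0 * u)⁻¹ * K * (g0 * u)) i j = 0) ∧
    (∀ i, ((g0 * u)⁻¹ * K * (g0 * u)) i i = δ i) ∧
    (∀ i j, j < i → ((g0 * u)⁻¹ * BA * (g0 * u) * w) i j = 0) ∧
    (g0 * u).adjugate * Bm * (g0 * u) * w
      = (g0 * u).det • ((g0 * u)⁻¹ * Bm * (g0 * u) * w) ∧
    g0.det ≠ 0 := by
  have hdet' : g0.det * u.det ≠ 0 := by rwa [Matrix.det_mul] at hdet
  have hg0det : g0.det ≠ 0 := left_ne_zero_of_mul hdet'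
  have hudet : u.det ≠ 0 := right_ne_zero_of_mul hdet'
  have hg0unit : IsUnit g0.det := isUnit_iff_ne_zero.mpr hg0det
  have huunit : IsUnit u.det := isUnit_iff_ne_zero.mpr hudet
  have hu0 : ∀ i, u i i ≠ 0 := by
    have hprod : ∏ i, u i i ≠ 0 := by
      rw [← det_ut hut]
      exact hudet
    intro i
    exact Finset.prod_ne_zero_iff.mp hprod i (Finset.mem_univ i)
  have hadj := (ut_adjugate_ne hut hu0).1
  have huinv_eq : u⁻¹ = (u.det)⁻¹ • u.adjugate := by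
    rw [Matrix.inv_def, Ring.inverse_eq_inv']
  have hg0inv_eq : g0⁻¹ = (g0.det)⁻¹ • g0.adjugate := by
    rw [Matrix.inv_def, Ring.inverse_eq_inv']
  have huinv : ∀ i j, j < i → u⁻¹ i j = 0 := by
    intro i j hij
    rw [huinv_eq, Matrix.smul_apply, hadj i j hij, smul_zero]
  have hginv : (g0 * u)⁻¹ = u⁻¹ * g0⁻¹ := Matrix.mul_inv_rev g0 u
  have hg0inv_mul : g0⁻¹ * g0 = 1 := Matrix.nonsing_inv_mul g0 hg0unit
  have huinv_mul : u⁻¹ * u = 1 := Matrix.nonsing_inv_mul u huunit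
  have hconj : (g0 * u)⁻¹ * K * (g0 * u) = u⁻¹ * J * u := by
    rw [hginv]
    calc u⁻¹ * g0⁻¹ * K * (g0 * u) = u⁻¹ * (g0⁻¹ * (K * g0)) * u := by
          simp only [Matrix.mul_assoc]
      _ = u⁻¹ * (g0⁻¹ * g0 * J) * u := by rw [hKg, Matrix.mul_assoc g0⁻¹ g0 J]
      _ = u⁻¹ * J * u := by rw [hg0inv_mul, Matrix.one_mul]
  have hT1 : ∀ i j, j < i → (u⁻¹ * J * u) i j = 0 := ut_mul (ut_mul huinv hJut) hut
  have hT2 : ∀ i, (u⁻¹ * J * u) i i = δ i := by
    intro i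
    rw [ut_mul_diag (ut_mul huinv hJut) hut i, ut_mul_diag huinv hJut i, hJd i]
    have h1 : u⁻¹ i i * u i i = 1 := by
      rw [← ut_mul_diag huinv hut i, huinv_mul, Matrix.one_apply_eq]
    calc u⁻¹ i i * δ i * u i i = (u⁻¹ i i * u i i) * δ i := by ring
      _ = δ i := by rw [h1, one_mul]
  have hconj3 : (g0 * u)⁻¹ * BA * (g0 * u) * w = (g0.det)⁻¹ • (u⁻¹ * (N * u * w)) := by
    rw [hginv, hN, hg0inv_eq]
    simp only [Matrix.mul_assoc, Matrix.smul_mul, Matrix.mul_smul]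
  have hadj_g : (g0 * u).adjugate = (g0 * u).det • (g0 * u)⁻¹ := by
    rw [Matrix.inv_def, Ring.inverse_eq_inv', smul_smul, mul_inv_cancel₀ hdet, one_smul]
  refine ⟨fun i j hij => ?_, fun i => ?_, fun i j hij => ?_, ?_, hg0det⟩
  · rw [hconj]
    exact hT1 i j hij
  · rw [hconj]
    exact hT2 i
  · rw [hconj3, Matrix.smul_apply, ut_mul huinv hNuw i j hij, smul_zero]
  · rw [hadj_g, Matrix.smul_mul, Matrix.smul_mul, Matrix.smul_mul]

theorem g1_frame_props {k : ℕ} (δ v : Fin (k + 1) → ℂ) (A B : Matrix (Fin (k + 1)) (Fin (k + 1)) ℂ)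
    (hK : (cmm A B).charpoly = ∏ i, (Polynomial.X - Polynomial.C (δ i)))
    (hdet : (g1Frame δ v A B).det ≠ 0) :
    (∀ i j, j < i → ((g1Frame δ v A B)⁻¹ * cmm A B * g1Frame δ v A B) i j = 0) ∧
    (∀ i, ((g1Frame δ v A B)⁻¹ * cmm A B * g1Frame δ v A B) i i = δ i) ∧
    (∀ i j, j < i →
      ((g1Frame δ v A B)⁻¹ * (B * A) * g1Frame δ v A B * revM ℂ (k + 1)) i j = 0) ∧
    g1Mat δ v A B = (g1Frame δ v A B).det •
      ((g1Frame δ v A B)⁻¹ * B * g1Frame δ v A B * revM ℂ (k + 1)) ∧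
    (jorU δ (cmm A B) v).det ≠ 0 :=
  h71_frame_abstract (cmm A B) (jorU δ (cmm A B) v)
    (ulF ((jorU δ (cmm A B) v).adjugate * (B * A) * jorU δ (cmm A B) v))
    (Matrix.diagonal δ + shU ℂ (k + 1)) (revM ℂ (k + 1)) (B * A) B
    ((jorU δ (cmm A B) v).adjugate * (B * A) * jorU δ (cmm A B) v) δ rfl hdet
    (mul_jorU δ (cmm A B) hK v) (bidU_shape δ).1 (bidU_shape δ).2 (H11.ulF_ut _) (H11.ulF_mul _)

end Vale.Agent.Lib.P002.H71
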